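import Mathlib

/-!
P216: if every element of a group is conjugate to a power of one of finitely many elements, then
kernels of homomorphisms onto `ℤ` from subgroups of finite index have bounded images in the finite
quotients.
-/

namespace Vale.Agent.P216.Pi1

open scoped BigOperators

/-- Positive integers whose inverses sum up to a given rational are bounded in terms of their
number. -/
theorem egyptian_bound : ∀ (k : ℕ) (r : ℚ), ∃ B : ℕ, ∀ m : Multiset ℕ,
    m.card ≤ k → (∀ c ∈ m, 0 < c) → (m.map fun c : ℕ => (c : ℚ)⁻¹).sum = r → ∀ c ∈ m, c ≤ B := by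
  intro k
  induction k with
  | zero =>
    intro r
    refine ⟨0, fun m hm _ _ c hc => absurd hc ?_⟩
    simp [Multiset.card_eq_zero.1 (Nat.le_zero.1 hm)]
  | succ k ih =>
    intro r
    choose B hB using ih
    rcases le_or_gt r 0 with hr | hr
    · refine ⟨0, fun m _ hpos hsum c hc => absurd hsum (ne_of_gt ?_)⟩
      obtain ⟨m', rfl⟩ := Multiset.exists_cons_of_mem hc
      rw [Multiset.map_cons, Multiset.sum_cons]
      have h1 : (0 : ℚ) < (c : ℚ)⁻¹ := inv_pos.2 (Nat.cast_pos.2 (hpos c hc))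
      have h2 : 0 ≤ (m'.map fun c : ℕ => (c : ℚ)⁻¹).sum := Multiset.sum_nonneg fun x hx => by
        obtain ⟨d, -, rfl⟩ := Multiset.mem_map.1 hx; positivity
      linarith
    set M := ⌈((k : ℚ) + 1) / r⌉₊ with hM
    refine ⟨max M ((Finset.range (M + 1)).sup fun c => B (r - (c : ℚ)⁻¹)),
      fun m hm hpos hsum c hc => ?_⟩
    obtain ⟨c₀, hc₀, hmin⟩ :=
      Finset.exists_min_image m.toFinset id ⟨c, Multiset.mem_toFinset.2 hc⟩
    rw [Multiset.mem_toFinset] at hc₀
    have hc₀p : (0 : ℚ) < c₀ := Nat.cast_pos.2 (hpos _ hc₀)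
    have hle : r ≤ (m.card : ℚ) * (c₀ : ℚ)⁻¹ := by
      rw [← hsum]
      refine (Multiset.sum_le_card_nsmul _ _ fun x hx => ?_).trans_eq
        (by rw [Multiset.card_map, nsmul_eq_mul])
      obtain ⟨d, hd, rfl⟩ := Multiset.mem_map.1 hx
      exact inv_anti₀ hc₀p (by exact_mod_cast hmin d (Multiset.mem_toFinset.2 hd))
    have hc₀M : c₀ ≤ M := by
      have h1 : (c₀ : ℚ) ≤ ((k : ℚ) + 1) / r := by
        rw [le_div_iff₀ hr]
        rw [← div_eq_mul_inv, le_div_iff₀ hc₀p] at hle
        have : (m.card : ℚ) ≤ k + 1 := by exact_mod_cast hm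
        linarith
      exact Nat.cast_le.1 (h1.trans (Nat.le_ceil _))
    obtain ⟨m', rfl⟩ := Multiset.exists_cons_of_mem hc₀
    rcases Multiset.mem_cons.1 hc with rfl | hc'
    · exact hc₀M.trans (le_max_left _ _)
    refine le_trans (hB (r - (c₀ : ℚ)⁻¹) m' (by simpa using hm)
      (fun d hd => hpos d (Multiset.mem_cons_of_mem hd)) (by
        rw [← hsum, Multiset.map_cons, Multiset.sum_cons]; ring) c hc') ?_
    exact le_trans (Finset.le_sup (f := fun c : ℕ => B (r - (c : ℚ)⁻¹))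
      (Finset.mem_range.2 (Nat.lt_succ_of_le hc₀M))) (le_max_right _ _)

/-- A finite group with few conjugacy classes is small. -/
theorem card_bound (k : ℕ) : ∃ B : ℕ, ∀ (K : Type*) [Group K] [Finite K],
    Nat.card (ConjClasses K) ≤ k → Nat.card K ≤ B := by
  obtain ⟨B, hB⟩ := egyptian_bound k 1
  refine ⟨B, fun K _ _ hk => ?_⟩
  classical
  have := Fintype.ofFinite K
  have hne : ∀ x : ConjClasses K, 0 < x.carrier.ncard := fun x => by
    refine (Set.ncard_pos).2 ?_
    obtain ⟨a, rfl⟩ := ConjClasses.exists_rep x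
    exact ⟨a, ConjClasses.mem_carrier_mk⟩
  have hdvd : ∀ x : ConjClasses K, x.carrier.ncard ∣ Nat.card K := fun x => by
    obtain ⟨a, rfl⟩ := ConjClasses.exists_rep x
    have h := (MulAction.stabilizer (ConjAct K) a).index_dvd_card
    rw [MulAction.index_stabilizer, ConjAct.orbit_eq_carrier_conjClasses] at h
    exact h
  have hsum : ∑ x : ConjClasses K, x.carrier.ncard = Nat.card K := by
    rw [Nat.card_eq_fintype_card, ← Fintype.card_congr (Equiv.sigmaFiberEquiv ConjClasses.mk),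
      Fintype.card_sigma]
    refine Finset.sum_congr rfl fun x _ => ?_
    rw [← Nat.card_coe_set_eq, Nat.card_eq_fintype_card]
    exact Fintype.card_congr (Equiv.subtypeEquivRight fun a => ConjClasses.mem_carrier_iff_mk_eq)
  set m := (Finset.univ : Finset (ConjClasses K)).1.map fun x => Nat.card K / x.carrier.ncard
    with hm
  have hK : 0 < Nat.card K := Nat.card_pos
  refine hB m ?_ ?_ ?_ _ ?_
  · simpa [hm, Nat.card_eq_fintype_card] using hk
  · intro c hc
    obtain ⟨x, -, rfl⟩ := Multiset.mem_map.1 hc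
    exact Nat.div_pos (Nat.le_of_dvd hK (hdvd x)) (hne x)
  · rw [hm, Multiset.map_map]
    show ∑ x : ConjClasses K, ((Nat.card K / x.carrier.ncard : ℕ) : ℚ)⁻¹ = 1
    have : ∀ x : ConjClasses K, ((Nat.card K / x.carrier.ncard : ℕ) : ℚ)⁻¹ =
        (x.carrier.ncard : ℚ) / Nat.card K := fun x => by
      rw [Nat.cast_div (hdvd x) (by exact_mod_cast (hne x).ne'), inv_div]
    simp only [this, ← Finset.sum_div]
    rw [← Nat.cast_sum, hsum, div_self (by exact_mod_cast hK.ne')]
  · refine Multiset.mem_map.2 ⟨ConjClasses.mk (1 : K), Finset.mem_univ _, ?_⟩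
    have : (ConjClasses.mk (1 : K)).carrier = {1} := by
      ext a
      rw [ConjClasses.mem_carrier_iff_mk_eq, ConjClasses.mk_eq_mk_iff_isConj, isConj_one_left,
        Set.mem_singleton_iff]
    rw [this, Set.ncard_singleton, Nat.div_one]

variable {G : Type*} [Group G]

/-- Every element is conjugate to a power of a member of `S`. -/
def CycClasses (S : Set G) : Prop := ∀ x : G, ∃ s ∈ S, ∃ (m : ℤ) (r : G), x = r * s ^ m * r⁻¹

/-- The property passes to subgroups of finite index. -/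
theorem CycClasses.subgroup {S : Set G} (hS : S.Finite) (h : CycClasses S) (H : Subgroup G)
    [H.FiniteIndex] : ∃ T : Set H, T.Finite ∧ CycClasses T := by
  have : Finite (Quotient (QuotientGroup.rightRel H)) :=
    Finite.of_equiv _ (QuotientGroup.quotientRightRelEquivQuotientLeftRel H).symm
  have := hS.to_subtype
  let u : S × Quotient (QuotientGroup.rightRel H) → G := fun p => p.2.out * p.1.1 * p.2.out⁻¹
  have hgen : ∀ p, ∃ t : H, ∀ m : ℤ, u p ^ m ∈ H → ∃ l : ℤ, u p ^ m = (t : G) ^ l := by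
    intro p
    set I : AddSubgroup ℤ := (Subgroup.toAddSubgroup H).comap
      (zmultiplesHom (Additive G) (Additive.ofMul (u p))) with hI
    obtain ⟨e, he⟩ := Int.subgroup_cyclic I
    have hmem : ∀ m : ℤ, u p ^ m ∈ H ↔ m ∈ I := fun m => by simp [hI]
    have he' : u p ^ e ∈ H := (hmem e).2 (he ▸ AddSubgroup.subset_closure rfl)
    refine ⟨⟨u p ^ e, he'⟩, fun m hm => ?_⟩
    obtain ⟨l, hl⟩ := AddSubgroup.mem_closure_singleton.1 (he ▸ (hmem m).1 hm)
    refine ⟨l, ?_⟩
    show u p ^ m = (u p ^ e) ^ l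
    rw [← zpow_mul, ← hl, smul_eq_mul, mul_comm]
  choose t ht using hgen
  refine ⟨Set.range t, Set.finite_range t, fun x => ?_⟩
  obtain ⟨s, hs, m, r, hx⟩ := h x
  set c : Quotient (QuotientGroup.rightRel H) := Quotient.mk _ r
  set d := r * c.out⁻¹ with hd
  have hdH : d ∈ H := by
    have := Quotient.mk_out (s := QuotientGroup.rightRel H) r
    exact QuotientGroup.rightRel_apply.1 this
  have hxd : (x : G) = d * u (⟨s, hs⟩, c) ^ m * d⁻¹ := by
    rw [hx, hd]
    simp only [u, conj_zpow]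
    group
  have hu : u (⟨s, hs⟩, c) ^ m ∈ H := by
    have h1 := H.mul_mem (H.mul_mem (H.inv_mem hdH) x.2) hdH
    rw [hxd] at h1
    convert h1 using 1
    group
  obtain ⟨l, hl⟩ := ht _ m hu
  refine ⟨t (⟨s, hs⟩, c), Set.mem_range_self _, l, ⟨d, hdH⟩, Subtype.ext ?_⟩
  rw [hxd, hl]
  simp

/-- The kernel of a homomorphism to `ℤ` has bounded images in the finite quotients. -/
theorem bounded_images {T : Set G} (hT : T.Finite) (hTc : CycClasses T)
    (φ : G →* Multiplicative ℤ) (hφ : φ ≠ 1) :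
    ∃ B : ℕ, ∀ (N : Subgroup G) [N.Normal] [N.FiniteIndex],
      Nat.card (φ.ker.map (QuotientGroup.mk' N) : Subgroup (G ⧸ N)) ≤ B := by
  set f : G → ℤ := fun a => Multiplicative.toAdd (φ a) with hf
  have fmul : ∀ a b, f (a * b) = f a + f b := fun a b => by simp [hf]
  have finv : ∀ a, f a⁻¹ = -f a := fun a => by simp [hf]
  have fpow : ∀ a (m : ℤ), f (a ^ m) = m * f a := fun a m => by simp [hf]
  have fker : ∀ {a}, f a = 0 → a ∈ φ.ker := fun {a} ha => by
    rw [MonoidHom.mem_ker]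
    exact Multiplicative.toAdd.injective (ha.trans toAdd_one.symm)
  obtain ⟨t, ht⟩ : ∃ t, f t ≠ 0 := by
    by_contra hc
    push Not at hc
    exact hφ (MonoidHom.ext fun a => Multiplicative.toAdd.injective ((hc a).trans toAdd_one.symm))
  have := hT.to_subtype
  classical
  let I := Σ u : T, Fin (f u.1).natAbs
  have : Fintype T := Fintype.ofFinite T
  let w : I → G := fun i =>
    if hw : ∃ x : G, f x % f i.1.1 = (i.2 : ℤ) then hw.choose else 1
  obtain ⟨B, hB⟩ := card_bound.{_} (Fintype.card I)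
  refine ⟨B, fun N _ hNi => ?_⟩
  set q := QuotientGroup.mk' N
  set Kb := φ.ker.map q with hKb
  have : Finite (G ⧸ N) := Subgroup.finite_quotient_of_finiteIndex
  refine hB Kb ?_
  set n : ℕ := N.index
  have hn : n ≠ 0 := hNi.index_ne_zero
  have htn : q (t ^ n) = 1 := by
    rw [QuotientGroup.mk'_apply, QuotientGroup.eq_one_iff]
    exact N.pow_index_mem t
  have key : ∀ x : Kb, ∃ (i : I) (k : Kb) (l : ℤ),
      (x : G ⧸ N) = k * q ((w i) * (i.1.1 : G) ^ l * (w i)⁻¹) * (k : G ⧸ N)⁻¹ ∧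
        l * f i.1.1 = n * f t := by
    intro x
    obtain ⟨κ, hκ, hκx⟩ := x.2
    set y : G := κ * t ^ n with hy
    obtain ⟨u, hu, m, z, hz⟩ := hTc y
    have hκ0 : f κ = 0 := by
      have h1 : φ κ = 1 := hκ
      simp [hf, h1]
    have hfy : f y = n * f t := by
      rw [hy, fmul, hκ0, ← zpow_natCast, fpow, zero_add]
    have hmu : m * f u = n * f t := by
      rw [← hfy, hz, fmul, fmul, finv, fpow]; ring
    have hu0 : f u ≠ 0 := fun h0 => by
      rw [h0, mul_zero] at hmu
      exact mul_ne_zero (Nat.cast_ne_zero.2 hn) ht hmu.symm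
    have h0 := Int.emod_nonneg (f z) hu0
    have hlt : (f z % f u).natAbs < (f u).natAbs := by
      have := Int.emod_lt_abs (f z) hu0
      rw [Int.abs_eq_natAbs] at this
      omega
    set i : I := ⟨⟨u, hu⟩, ⟨(f z % f u).natAbs, hlt⟩⟩ with hi
    have hex : ∃ x : G, f x % f i.1.1 = (i.2 : ℤ) :=
      ⟨z, (Int.natAbs_of_nonneg h0).symm⟩
    have hw : f (w i) % f u = f z % f u := by
      simp only [w, dif_pos hex]
      exact hex.choose_spec.trans (Int.natAbs_of_nonneg h0)
    obtain ⟨l, hl⟩ : f u ∣ f z - f (w i) := Int.ModEq.dvd hw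
    set k : G := z * u ^ (-l) * (w i)⁻¹ with hk
    have hkk : k ∈ φ.ker := fker (by rw [hk, fmul, fmul, finv, fpow]; linarith)
    refine ⟨i, ⟨q k, ⟨k, hkk, rfl⟩⟩, m, ?_, hmu⟩
    have e : y = k * (w i * u ^ m * (w i)⁻¹) * k⁻¹ := by
      rw [hz, hk]
      have : u ^ (-l) * u ^ m * u ^ l = u ^ m := by
        rw [← zpow_add, ← zpow_add]; congr 1; ring
      simp only [zpow_neg] at this ⊢
      conv_lhs => rw [← this]
      group
    have h1 : (x : G ⧸ N) = q y := by
      rw [← hκx, hy]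
      simp [map_mul, htn]
    rw [h1, e]
    simp [map_mul, hi]
  choose ι k l hk hl using key
  have hinj : ∀ x x', ι x = ι x' → IsConj x x' := fun x x' he => by
    refine isConj_iff.2 ⟨k x' * (k x)⁻¹, Subtype.ext ?_⟩
    have hne : f (ι x).1.1 ≠ 0 := Int.natAbs_pos.1 (Fin.pos (ι x).2)
    have hll : l x = l x' := by
      refine mul_right_cancel₀ hne ((hl x).trans ?_)
      rw [he]; exact (hl x').symm
    have e1 := hk x
    have e2 := hk x'
    rw [← he, ← hll] at e2
    push_cast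
    rw [e2, e1]
    group
  calc Nat.card (ConjClasses Kb)
      ≤ Nat.card I := by
        refine Nat.card_le_card_of_injective (fun c : ConjClasses Kb => ι c.out) fun c c' he => ?_
        rw [← Quotient.out_eq c, ← Quotient.out_eq c']
        exact Quotient.sound (hinj _ _ he)
    _ = Fintype.card I := Nat.card_eq_fintype_card

/-- A descending normal series in which `p`-th powers double the depth has only logarithmically
many strict steps. -/
theorem bounded_layers {T : Set G} (hT : T.Finite) (hTc : CycClasses T) {p : ℕ} (hp : p.Prime)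
    (D : ℕ → Subgroup G) (hDn : ∀ n, (D n).Normal) (hD : Antitone D) (h1 : D 1 = ⊤)
    (hpow : ∀ n, ∀ x ∈ D n, x ^ p ∈ D (2 * n)) (n : ℕ) :
    Set.ncard {i | i ∈ Set.Icc 1 n ∧ D (i + 1) ≠ D i} ≤ T.ncard * (Nat.log 2 n + 1) := by
  classical
  have hdepth : ∀ (t : G) (v : ℕ), t ^ p ^ v ∈ D (2 ^ v) := fun t v => by
    induction v with
    | zero => simp [h1]
    | succ v ih => rw [pow_succ p v, pow_mul, pow_succ' 2 v]; exact hpow _ _ ih
  set P : ℕ → G × ℕ → Prop := fun i q => q.1 ^ p ^ q.2 ∈ D i ∧ q.1 ^ p ^ q.2 ∉ D (i + 1)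
  have key : ∀ i ∈ {i | i ∈ Set.Icc 1 n ∧ D (i + 1) ≠ D i},
      ∃ q ∈ T ×ˢ (Set.Iic (Nat.log 2 n)), P i q := by
    rintro i ⟨⟨hi1, hin⟩, hne⟩
    obtain ⟨x, hx, hx'⟩ := SetLike.exists_of_lt (lt_of_le_of_ne (hD (Nat.le_succ i)) hne)
    obtain ⟨t, ht, m, r, rfl⟩ := hTc x
    have hm1 : t ^ m ∈ D i := by
      have := (hDn i).conj_mem _ hx r⁻¹
      simpa [mul_assoc] using this
    have hm2 : t ^ m ∉ D (i + 1) := fun h => hx' ((hDn _).conj_mem _ h r)
    have hm0 : m.natAbs ≠ 0 := fun h => hm2 (by rw [Int.natAbs_eq_zero.1 h, zpow_zero]; exact one_mem _)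
    obtain ⟨v, u, hu, hvu⟩ := Nat.exists_eq_pow_mul_and_not_dvd hm0 p hp.ne_one
    have habs : ∀ j, t ^ m ∈ D j ↔ (t ^ p ^ v) ^ u ∈ D j := fun j => by
      rw [← pow_mul, ← hvu, ← zpow_natCast]
      rcases Int.natAbs_eq m with h | h
      · rw [← h]
      · conv_lhs => rw [h, zpow_neg, inv_mem_iff]
    have hmem : t ^ p ^ v ∈ D i := by
      have hex : ∀ j, 1 ≤ j → j ≤ i → t ^ p ^ v ∈ D j := by
        intro j hj1
        induction j, hj1 using Nat.le_induction with
        | base => intro; simp [h1]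
        | succ j hj ih =>
          intro hji
          have hj' := ih (by omega)
          have h2 : (t ^ p ^ v) ^ p ∈ D (j + 1) := hD (by omega) (hpow j _ hj')
          have h3 : (t ^ p ^ v) ^ u ∈ D (j + 1) := hD hji ((habs i).1 hm1)
          have hcop : Nat.gcd u p = 1 := Nat.Coprime.symm ((hp.coprime_iff_not_dvd).2 hu)
          have e := Nat.gcd_eq_gcd_ab u p
          rw [hcop, Nat.cast_one] at e
          rw [← zpow_one (t ^ p ^ v), e, zpow_add, zpow_mul, zpow_mul, zpow_natCast, zpow_natCast]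
          exact mul_mem (zpow_mem h3 _) (zpow_mem h2 _)
      exact hex i hi1 le_rfl
    have hnot : t ^ p ^ v ∉ D (i + 1) := fun h => hm2 ((habs _).2 (pow_mem h u))
    have hv : 2 ^ v ≤ n := by
      by_contra hc
      exact hnot (hD (by omega) (hdepth t v))
    exact ⟨(t, v), ⟨ht, Nat.le_log_of_pow_le (by norm_num) hv⟩, hmem, hnot⟩
  choose! f hf hPf using key
  have hinj : Set.InjOn f {i | i ∈ Set.Icc 1 n ∧ D (i + 1) ≠ D i} := by
    intro i hi j hj he
    by_contra hne
    have h1 := hPf i hi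
    have h2 := hPf j hj
    rw [he] at h1
    rcases Nat.lt_or_gt_of_ne hne with h | h
    · exact h1.2 (hD h h2.1)
    · exact h2.2 (hD h h1.1)
  refine (Set.ncard_le_ncard_of_injOn f hf hinj (hT.prod (Set.finite_Iic _))).trans_eq ?_
  rw [Set.ncard_prod, ← Nat.card_coe_set_eq (Set.Iic _)]
  simp

/-- An infinite subgroup of a residually finite group has unbounded finite images. -/
theorem unbounded_images [Group.ResiduallyFinite G] {K : Subgroup G} (hK : Infinite K) (B : ℕ) :
    ∃ (N : Subgroup G) (_hN : N.Normal), N.FiniteIndex ∧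
        B < Nat.card (K.map (QuotientGroup.mk' N) : Subgroup (G ⧸ N)) := by
  classical
  obtain ⟨F, hF⟩ := Infinite.exists_subset_card_eq K (B + 1)
  have hsep : ∀ p : K × K, ∃ N : FiniteIndexNormalSubgroup G,
      p.1 ≠ p.2 → (p.1 : G)⁻¹ * p.2 ∉ N := by
    intro p
    by_cases hp : p.1 = p.2
    · exact ⟨⟨⊤, inferInstance, inferInstance⟩, fun h => absurd hp h⟩
    · obtain ⟨N, hN⟩ := Group.exists_finiteIndexNormalSubgroup_notMem ((p.1 : G)⁻¹ * p.2)
        (fun h => hp (Subtype.ext (inv_mul_eq_one.1 h)))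
      exact ⟨N, fun _ => hN⟩
  choose N hN using hsep
  set M : Subgroup G := ⨅ p : (F ×ˢ F : Finset (K × K)), (N p.1).toSubgroup with hM
  have hMn : M.Normal := Subgroup.normal_iInf_normal fun p => (N p.1).isNormal'
  have hMi : M.FiniteIndex := Subgroup.finiteIndex_iInf fun p => (N p.1).isFiniteIndex'
  have : Finite (G ⧸ M) := Subgroup.finite_quotient_of_finiteIndex
  refine ⟨M, hMn, hMi, ?_⟩
  have hinj : Function.Injective fun a : F =>
      (⟨QuotientGroup.mk' M (a.1 : G), ⟨_, a.1.2, rfl⟩⟩ : K.map (QuotientGroup.mk' M)) := by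
    intro a b hab
    have h1 : (a.1 : G)⁻¹ * (b.1 : G) ∈ M :=
      QuotientGroup.eq.1 (by simpa using congrArg Subtype.val hab)
    refine Subtype.ext (by_contra fun hne => ?_)
    rw [hM, Subgroup.mem_iInf] at h1
    exact hN (a.1, b.1) hne (h1 ⟨(a.1, b.1), Finset.mem_product.2 ⟨a.2, b.2⟩⟩)
  have := Nat.card_le_card_of_injective _ hinj
  rw [Nat.card_eq_fintype_card (α := F), Fintype.card_coe, hF] at this
  omega

/-- Residual finiteness passes to subgroups. -/
theorem residuallyFinite_subgroup [Group.ResiduallyFinite G] (H : Subgroup G) :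
    Group.ResiduallyFinite H := by
  rw [Group.residuallyFinite_iff_exists_finiteIndex]
  intro a ha
  obtain ⟨N, hN⟩ :=
    Group.exists_finiteIndexNormalSubgroup_notMem (a : G) (fun h => ha (Subtype.ext h))
  have := N.isFiniteIndex'
  exact ⟨N.toSubgroup.subgroupOf H, inferInstance, fun h => hN (Subgroup.mem_subgroupOf.1 h)⟩

/-- The group theoretic core. -/
theorem not_cycClasses (H : Subgroup G) [H.FiniteIndex]
    (hK : (∃ φ : H →* Multiplicative ℤ, φ ≠ 1 ∧ ((Group.ResiduallyFinite G ∧ Infinite φ.ker) ∨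
      ∀ B : ℕ, ∃ (N : Subgroup H) (_hN : N.Normal), N.FiniteIndex ∧
        B < Nat.card (φ.ker.map (QuotientGroup.mk' N) : Subgroup (H ⧸ N)))) ∨
      ∃ (p : ℕ) (D : ℕ → Subgroup H), p.Prime ∧ (∀ n, (D n).Normal) ∧ Antitone D ∧ D 1 = ⊤ ∧
        (∀ n, ∀ x ∈ D n, x ^ p ∈ D (2 * n)) ∧ ∀ C : ℕ, ∃ n, C * (Nat.log 2 n + 1) <
          Set.ncard {i | i ∈ Set.Icc 1 n ∧ D (i + 1) ≠ D i})
    {S : Set G} (hS : S.Finite) : ¬ CycClasses S := fun h => by
  obtain ⟨T, hT, hTc⟩ := h.subgroup hS H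
  rcases hK with ⟨φ, hφ, hK⟩ | ⟨p, D, hp, hDn, hD, h1, hpow, hC⟩
  · obtain ⟨B, hB⟩ := bounded_images hT hTc φ hφ
    have hu : ∃ (N : Subgroup H) (_hN : N.Normal), N.FiniteIndex ∧
        B < Nat.card (φ.ker.map (QuotientGroup.mk' N) : Subgroup (H ⧸ N)) := by
      rcases hK with ⟨hR, hK⟩ | hK
      · have := residuallyFinite_subgroup H
        exact unbounded_images hK B
      · exact hK B
    obtain ⟨N, hN, hNi, hlt⟩ := hu
    exact absurd (hB N) (not_le.2 hlt)
  · obtain ⟨n, hn⟩ := hC T.ncard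
    exact absurd (bounded_layers hT hTc hp D hDn hD h1 hpow n) (not_le.2 hn)

end Vale.Agent.P216.Pi1
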