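import Mathlib

/-!
P216: free homotopies and powers of periodic curves in the fundamental group.
-/

namespace Vale.Agent.P216.Pi1

open CategoryTheory unitInterval

noncomputable section

variable {X : Type*} [TopologicalSpace X]

/-- Paths with common ends that lift to paths with common ends in a vector space are homotopic. -/
theorem homotopic_of_lift {V : Type*} [AddCommGroup V] [Module ℝ V] [TopologicalSpace V]
    [IsTopologicalAddGroup V] [ContinuousSMul ℝ V] (c : C(V, X)) {x y : X} (p q : Path x y)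
    (φ ψ : I → V) (hφ : Continuous φ) (hψ : Continuous ψ) (h0 : φ 0 = ψ 0) (h1 : φ 1 = ψ 1)
    (hp : ∀ t, p t = c (φ t)) (hq : ∀ t, q t = c (ψ t)) : p.Homotopic q := by
  refine ⟨⟨⟨⟨fun z => c (φ z.2 + (z.1 : ℝ) • (ψ z.2 - φ z.2)), by fun_prop⟩, fun t => ?_,
    fun t => ?_⟩, fun s t ht => ?_⟩⟩
  · simp [hp]
  · simp [hq]
  · rcases ht with rfl | rfl
    · simpa [h0] using (hp 0).symm
    · simpa [h1] using (hp 1).symm

/-- The class of a loop at the point `y`, moved to `x` along `Q`. -/
def tr {x y : X} (Q : Path x y) (z : FundamentalGroup X y) : FundamentalGroup X x :=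
  FundamentalGroup.fromArrow
    (show FundamentalGroupoid.mk x ⟶ FundamentalGroupoid.mk x from
      (Path.Homotopic.Quotient.mk Q : FundamentalGroupoid.mk x ⟶ FundamentalGroupoid.mk y) ≫ z ≫
        Groupoid.inv (Path.Homotopic.Quotient.mk Q : FundamentalGroupoid.mk x ⟶ FundamentalGroupoid.mk y))

theorem tr_one {x y : X} (Q : Path x y) : tr Q 1 = 1 := by
  simp [tr, End.one_def]

theorem tr_mul {x y : X} (Q : Path x y) (a b : FundamentalGroup X y) :
    tr Q (a * b) = tr Q a * tr Q b := by
  simp [tr, End.mul_def, Category.assoc]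

/-- The transport as a homomorphism. -/
def trHom {x y : X} (Q : Path x y) : FundamentalGroup X y →* FundamentalGroup X x where
  toFun := tr Q
  map_one' := tr_one Q
  map_mul' := tr_mul Q

theorem tr_zpow {x y : X} (Q : Path x y) (a : FundamentalGroup X y) (m : ℤ) :
    tr Q (a ^ m) = tr Q a ^ m := map_zpow (trHom Q) a m

/-- Two transports differ by a conjugation. -/
theorem tr_conj {x y : X} (P Q : Path x y) (z : FundamentalGroup X y) :
    ∃ r, tr Q z = r * tr P z * r⁻¹ := by
  let p : FundamentalGroupoid.mk x ⟶ FundamentalGroupoid.mk y := Path.Homotopic.Quotient.mk P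
  let q : FundamentalGroupoid.mk x ⟶ FundamentalGroupoid.mk y := Path.Homotopic.Quotient.mk Q
  refine ⟨p ≫ Groupoid.inv q, ?_⟩
  rw [eq_mul_inv_iff_mul_eq]
  show End.of _ = _
  simp [tr, End.mul_def, Category.assoc, p, q]

theorem tr_trans {x y w : X} (P : Path x y) (Q : Path y w) (z : FundamentalGroup X w) :
    tr P (tr Q z) = tr (P.trans Q) z := by
  let p := FundamentalGroupoid.fromPath (Path.Homotopic.Quotient.mk P)
  let q := FundamentalGroupoid.fromPath (Path.Homotopic.Quotient.mk Q)
  show p ≫ (q ≫ z ≫ Groupoid.inv q) ≫ Groupoid.inv p = (p ≫ q) ≫ z ≫ Groupoid.inv (p ≫ q)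
  simp [Category.assoc]

/-- The class of a loop. -/
def cls {x : X} (p : Path x x) : FundamentalGroup X x :=
  FundamentalGroup.fromPath (Path.Homotopic.Quotient.mk p)

theorem cls_surjective {x : X} (g : FundamentalGroup X x) : ∃ p : Path x x, cls p = g :=
  Quotient.exists_rep g

theorem cls_eq {x : X} {p q : Path x x} (h : p.Homotopic q) : cls p = cls q := Quotient.sound h

theorem cls_refl (x : X) : cls (Path.refl x) = 1 := rfl

/-- A free homotopy of loops conjugates their classes. -/
theorem free_homotopy {x y : X} (p : Path x x) (q : Path y y) (F : C(I × I, X))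
    (h0 : ∀ t, F (0, t) = p t) (h1 : ∀ t, F (1, t) = q t) (hends : ∀ s, F (s, 0) = F (s, 1)) :
    ∃ Q : Path x y, cls p = tr Q (cls q) := by
  let Q : Path x y :=
    ⟨⟨fun s => F (s, 0), by fun_prop⟩, by simp [h0], by simp [h1]⟩
  refine ⟨Q, ?_⟩
  let c : C(ℝ × ℝ, X) := F.comp ⟨fun v => (Set.projIcc 0 1 zero_le_one v.1,
    Set.projIcc 0 1 zero_le_one v.2), by fun_prop⟩
  have hc : ∀ s t : I, c ((s : ℝ), (t : ℝ)) = F (s, t) := fun s t => by
    simp [c, Set.projIcc_of_mem]
  let e1 : Path ((0 : ℝ), (0 : ℝ)) (1, 0) :=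
    ⟨⟨fun t => ((t : ℝ), 0), by fun_prop⟩, by simp, by simp⟩
  let e2 : Path ((1 : ℝ), (0 : ℝ)) (1, 1) :=
    ⟨⟨fun t => (1, (t : ℝ)), by fun_prop⟩, by simp, by simp⟩
  let e3 : Path ((1 : ℝ), (1 : ℝ)) (0, 1) :=
    ⟨⟨fun t => (1 - (t : ℝ), 1), by fun_prop⟩, by simp, by simp⟩
  let ψ := e1.trans (e2.trans e3)
  have hh : p.Homotopic (Q.trans (q.trans Q.symm)) := by
    refine homotopic_of_lift c p _ (fun t => ((0 : ℝ), (t : ℝ))) ψ (by fun_prop) ψ.continuous
      (by simp [ψ]) (by simp [ψ]) (fun t => ?_) fun t => ?_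
    · rw [← h0, ← hc]; rfl
    · simp only [ψ, Path.trans_apply]
      split_ifs
      · exact (hc _ 0).symm
      · rw [← h1, ← hc 1]
        rfl
      · show Q.symm _ = _
        rw [Path.symm_apply]
        show F (σ _, 0) = _
        rw [hends, ← hc, coe_symm_eq]
        rfl
  rw [cls_eq hh]
  rfl

/-- The loop of `m` periods. -/
def loopPow (c : C(ℝ, X)) (a : ℝ) (hc : Function.Periodic c a) (m : ℤ) : Path (c 0) (c 0) :=
  ⟨⟨fun t => c ((t : ℝ) * (m * a)), by fun_prop⟩, by simp, by
    simpa using hc.int_mul_eq m⟩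

/-- Powers of a periodic curve. -/
theorem cls_loopPow (c : C(ℝ, X)) (a : ℝ) (hc : Function.Periodic c a) (m : ℤ) :
    cls (loopPow c a hc m) = cls (loopPow c a hc 1) ^ m := by
  have h0 : cls (loopPow c a hc 0) = 1 := by
    rw [← cls_refl]
    refine cls_eq (homotopic_of_lift c _ _ (fun _ => (0 : ℝ)) (fun _ => 0) (by fun_prop)
      (by fun_prop) rfl rfl (fun t => ?_) fun t => ?_) <;> simp [loopPow]
  have hadd : ∀ i j : ℤ, cls (loopPow c a hc (i + j)) =
      cls (loopPow c a hc j) * cls (loopPow c a hc i) := by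
    intro i j
    let u : Path (0 : ℝ) (i * a) := ⟨⟨fun t => (t : ℝ) * (i * a), by fun_prop⟩, by simp, by simp⟩
    let v : Path ((i : ℝ) * a) ((i + j) * a) :=
      ⟨⟨fun t => i * a + (t : ℝ) * (j * a), by fun_prop⟩, by simp, by simp [add_mul]⟩
    have hh : (loopPow c a hc (i + j)).Homotopic
        ((loopPow c a hc i).trans (loopPow c a hc j)) := by
      refine homotopic_of_lift c _ _ (fun t => (t : ℝ) * ((i + j : ℤ) * a)) (u.trans v)
        (by fun_prop) (u.trans v).continuous (by simp) (by simp) (fun t => rfl) fun t => ?_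
      simp only [Path.trans_apply]
      split_ifs
      · rfl
      · simp only [loopPow, v, Path.coe_mk_mk]
        rw [add_comm ((i : ℝ) * a)]
        exact (hc.int_mul i _).symm
    rw [cls_eq hh]
    rfl
  set g := cls (loopPow c a hc 1)
  induction m using Int.induction_on with
  | zero => rw [h0, zpow_zero]
  | succ i ih => rw [hadd, ih, ← zpow_one_add, add_comm]
  | pred i ih =>
    have := hadd (-(i : ℤ) - 1) 1
    rw [sub_add_cancel, ih] at this
    have h2 : cls (loopPow c a hc (-(i : ℤ) - 1)) = g⁻¹ * g ^ (-(i : ℤ)) := by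
      rw [this]
      show _ = g⁻¹ * (g * _)
      rw [inv_mul_cancel_left]
    rw [h2]
    group

end

end Vale.Agent.P216.Pi1
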