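import Vale.Agent.P216.Sym.Shorten
import Vale.Agent.P216.Pi1.Loops

/-!
P216: every non-trivial free homotopy class of loops contains a closed local geodesic (a polygon of
least energy).
-/

open Set Filter Metric Manifold Bundle
open scoped Topology ContDiff unitInterval

namespace Vale.Agent.P216.Pi1

open Vale.Agent.P216.Chord Vale.Agent.P216.Sym

noncomputable section

variable {X : Type*} [TopologicalSpace X]

/-- A loop in the free homotopy class of `z`. -/
def InClass {x y : X} (z : FundamentalGroup X x) (p : Path y y) : Prop :=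
  ∃ Q : Path x y, z = tr Q (cls p)

theorem inClass_self {x : X} (p : Path x x) : InClass (cls p) p := by
  refine ⟨Path.refl x, ?_⟩
  let q := FundamentalGroupoid.fromPath (Path.Homotopic.Quotient.mk (Path.refl x))
  show cls p = CategoryTheory.CategoryStruct.comp q
    (CategoryTheory.CategoryStruct.comp (cls p) (CategoryTheory.Groupoid.inv q))
  have hq : q = CategoryTheory.CategoryStruct.id (FundamentalGroupoid.mk x) := rfl
  simp [hq]

theorem InClass.of_free {x y y' : X} {z : FundamentalGroup X x} {p : Path y y} (h : InClass z p)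
    (p' : Path y' y') (F : C(I × I, X)) (h0 : ∀ t, F (0, t) = p t) (h1 : ∀ t, F (1, t) = p' t)
    (hends : ∀ s, F (s, 0) = F (s, 1)) : InClass z p' := by
  obtain ⟨Q, rfl⟩ := h
  obtain ⟨Q', hQ'⟩ := free_homotopy p p' F h0 h1 hends
  exact ⟨Q.trans Q', by rw [hQ', tr_trans]⟩

variable {E : Type*} [NormedAddCommGroup E] [NormedSpace ℝ E]
  {M : Type*} [TopologicalSpace M] [ChartedSpace E M] [IsManifold 𝓘(ℝ, E) ∞ M]
  [T2Space M] [CompactSpace M] [PreconnectedSpace M]
  {g : ContMDiffRiemannianMetric 𝓘(ℝ, E) ∞ E (fun x : M => TangentSpace 𝓘(ℝ, E) x)}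
  {ρ r : ℝ} {n : ℕ} {y y' : ZMod n → M}

variable (g) in
/-- All edges are at most `r`. -/
def Short (r : ℝ) (y : ZMod n → M) : Prop := ∀ j, gdist g (y j) (y (j + 1)) ≤ r

theorem continuous_curve_comp (hρ : UniqueRadius g ρ) {Q : Type*} [TopologicalSpace Q]
    (Y : Q → ZMod n → M) (hY : Continuous Y) (hd : ∀ q j, gdist g (Y q j) (Y q (j + 1)) < ρ) :
    Continuous fun z : Q × I => curve g (Y z.1) ((z.2 : ℝ) * n) :=
  (continuousOn_curve hρ Y hY hd n).comp_continuous
    (f := fun z : Q × I => (z.1, (z.2 : ℝ) * n))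
    (continuous_fst.prodMk ((continuous_subtype_val.comp continuous_snd).mul continuous_const))
    fun z => ⟨trivial, mul_nonneg z.2.2.1 (Nat.cast_nonneg n),
      mul_le_of_le_one_left (Nat.cast_nonneg n) z.2.2.2⟩

theorem curve_zero : curve g y 0 = y 0 := by
  simpa using curve_int (g := g) (y := y) 0

theorem curve_n : curve g y (n : ℝ) = y 0 := by
  simpa using curve_int (g := g) (y := y) (n : ℤ)

/-- The loop of a short polygon. -/
def polyLoop (hρ : UniqueRadius g ρ) (hr : r < ρ) (hy : Short g r y) : Path (y 0) (y 0) :=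
  ⟨⟨fun t : I => curve g y ((t : ℝ) * n),
    (continuous_curve_comp hρ (fun _ : Unit => y) continuous_const
      (fun _ j => (hy j).trans_lt hr)).comp (continuous_const.prodMk continuous_id :
        Continuous fun t : I => ((), t))⟩,
    by simp [curve_zero], by simp [curve_n]⟩

theorem polyLoop_apply (hρ : UniqueRadius g ρ) (hr : r < ρ) (hy : Short g r y) (t : I) :
    polyLoop hρ hr hy t = curve g y ((t : ℝ) * n) := rfl

variable {x₀ : M} {z : FundamentalGroup M x₀}

/-- Nearby polygons are in the same class. -/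
theorem inClass_near (hρ : UniqueRadius g ρ) (hr : r < ρ) (hr8 : 3 * r < ρ) (hy : Short g r y)
    (hy' : Short g r y') (hd : ∀ j, gdist g (y j) (y' j) ≤ r)
    (h : InClass z (polyLoop hρ hr hy)) : InClass z (polyLoop hρ hr hy') := by
  have hdρ : ∀ j, gdist g (y j) (y' j) < ρ := fun j => (hd j).trans_lt hr
  let Y : I → ZMod n → M := fun s j => seg g (y j) (y' j) (s : ℝ)
  have hY : Continuous Y := continuous_pi fun j =>
    (continuousOn_seg hρ).comp_continuous (f := fun s : I => ((y j, y' j), (s : ℝ)))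
      (continuous_const.prodMk continuous_subtype_val) fun s => ⟨hdρ j, s.2⟩
  have hleft : ∀ s j, gdist g (y j) (Y s j) ≤ r := fun s j => by
    rw [show Y s j = seg g (y j) (y' j) (s : ℝ) from rfl, seg_left s.2]
    exact (mul_le_of_le_one_left (gdist_nonneg _ _) s.2.2).trans (hd j)
  have hedge : ∀ s j, gdist g (Y s j) (Y s (j + 1)) < ρ := fun s j => by
    linarith [gdist_triangle (g := g) (Y s j) (y j) (Y s (j + 1)),
      gdist_triangle (g := g) (y j) (y (j + 1)) (Y s (j + 1)),
      gdist_comm (g := g) (y j) (Y s j), hleft s j, hleft s (j + 1), hy j]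
  refine h.of_free _ ⟨fun q => curve g (Y q.1) ((q.2 : ℝ) * n),
    continuous_curve_comp hρ Y hY hedge⟩ (fun t => ?_) (fun t => ?_) fun s => ?_
  · show curve g (Y 0) _ = curve g y _
    rw [show Y 0 = y from funext fun j => seg_zero _ _]
  · show curve g (Y 1) _ = curve g y' _
    rw [show Y 1 = y' from funext fun j => seg_one _ _]
  · show curve g (Y s) _ = curve g (Y s) _
    simp [curve_zero, curve_n]

/-- Every class contains short polygons. -/
theorem exists_inscribed' (hρ : UniqueRadius g ρ) (hr0 : 0 < r) (hr : r < ρ) (hr8 : 3 * r < ρ)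
    (γ : Path x₀ x₀) : ∃ (n : ℕ) (_ : NeZero n) (y : ZMod n → M) (hy : Short g r y),
      InClass (cls γ) (polyLoop hρ hr hy) := by
  let := gMetricSpace g
  obtain ⟨δ, hδ, hu⟩ := Metric.uniformContinuous_iff.1
    (CompactSpace.uniformContinuous_of_continuous γ.continuous) r hr0
  obtain ⟨K, hK⟩ := exists_nat_gt (1 / δ)
  set n := K + 1 with hn
  have hn0 : (0 : ℝ) < n := by rw [hn]; positivity
  have hnδ : 1 / (n : ℝ) < δ := by
    rw [div_lt_iff₀ hδ] at hK
    rw [div_lt_iff₀ hn0, hn]
    push_cast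
    nlinarith
  have hclose : ∀ u v : ℝ, u ∈ Icc (0 : ℝ) 1 → v ∈ Icc (0 : ℝ) 1 → |u - v| ≤ 1 / n →
      gdist g (γ.extend u) (γ.extend v) ≤ r := fun u v hu' hv' huv => by
    rw [Path.extend_apply _ hu', Path.extend_apply _ hv']
    exact (hu (a := ⟨u, hu'⟩) (b := ⟨v, hv'⟩) (huv.trans_lt hnδ)).le
  set y : ZMod n → M := fun j => γ.extend ((j.val : ℝ) / n) with hy
  have hval : ∀ k : ℕ, k ≤ n → y (k : ZMod n) = γ.extend ((k : ℝ) / n) := by
    intro k hk
    rcases hk.eq_or_lt with h | h
    · rw [h, ZMod.natCast_self, div_self hn0.ne']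
      simp [hy]
    · rw [hy]
      simp only
      rw [ZMod.val_natCast, Nat.mod_eq_of_lt h]
  have hI : ∀ k : ℕ, k ≤ n → (k : ℝ) / n ∈ Icc (0 : ℝ) 1 := fun k hk =>
    ⟨by positivity, (div_le_one hn0).2 (Nat.cast_le.2 hk)⟩
  have hshort : Short g r y := by
    intro j
    obtain ⟨k, hk, rfl⟩ : ∃ k < n, (k : ZMod n) = j :=
      ⟨j.val, ZMod.val_lt j, ZMod.natCast_zmod_val j⟩
    rw [hval k hk.le, show (k : ZMod n) + 1 = ((k + 1 : ℕ) : ZMod n) by push_cast; rfl, hval _ hk]
    refine hclose _ _ (hI k hk.le) (hI _ hk) ?_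
    rw [← sub_div, abs_div, abs_of_pos hn0]
    push_cast
    simp
  refine ⟨n, inferInstance, y, hshort, ?_⟩
  have hnear : ∀ t : I, gdist g (γ t) (curve g y ((t : ℝ) * n)) < ρ := by
    intro t
    set v := (t : ℝ) * n with hv
    have hv0 : 0 ≤ v := mul_nonneg t.2.1 hn0.le
    have hvn : v ≤ n := mul_le_of_le_one_left hn0.le t.2.2
    set k := ⌊v⌋₊ with hk
    have hkv : (k : ℝ) ≤ v := Nat.floor_le hv0
    have hkn : k ≤ n := Nat.cast_le.1 (hkv.trans hvn)
    have h1 : v ∈ Icc ((k : ℤ) : ℝ) ((k : ℤ) + 1) := by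
      push_cast
      exact ⟨hkv, (Nat.lt_floor_add_one v).le⟩
    have e1 := gdist_curve_le (g := g) hshort h1
    rw [Int.cast_natCast, hval k hkn] at e1
    have e2 : gdist g (γ t) (γ.extend ((k : ℝ) / n)) ≤ r := by
      have := hclose (t : ℝ) ((k : ℝ) / n) t.2 (hI k hkn) (by
        have e : (t : ℝ) - k / n = (v - k) / n := by rw [hv]; field_simp
        rw [e, abs_div, abs_of_pos hn0]
        gcongr
        rw [abs_le]
        constructor <;> linarith [(Nat.lt_floor_add_one v : v < k + 1)])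
      rwa [Path.extend_apply _ t.2] at this
    linarith [gdist_triangle (g := g) (γ t) (γ.extend ((k : ℝ) / n)) (curve g y v)]
  refine (inClass_self γ).of_free _
    ⟨fun q => seg g (γ q.2) (curve g y ((q.2 : ℝ) * n)) (q.1 : ℝ),
      (continuousOn_seg hρ).comp_continuous
        (f := fun q : I × I => ((γ q.2, curve g y ((q.2 : ℝ) * n)), (q.1 : ℝ)))
        (((γ.continuous.comp continuous_snd).prodMk
          ((polyLoop hρ hr hshort).continuous.comp continuous_snd)).prodMk
            (continuous_subtype_val.comp continuous_fst))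
        fun q => ⟨hnear q.2, q.1.2⟩⟩ (fun t => ?_) (fun t => ?_) fun s => ?_
  · exact seg_zero _ _
  · exact seg_one _ _
  · show seg g (γ 0) (curve g y _) (s : ℝ) = seg g (γ 1) (curve g y _) (s : ℝ)
    simp [curve_zero, curve_n]

theorem short_mids {r : ℝ} (hy : Short g r y) : Short g r (mids g y) := fun j =>
  (gdist_mids_le y j).trans (by linarith [hy j, hy (j + 1)])

theorem short_shorten {r : ℝ} (hy : Short g r y) : Short g r (shorten g y) := fun j => by
  obtain ⟨i, rfl⟩ : ∃ i, j = i + 1 := ⟨j - 1, by ring⟩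
  rw [shorten_eq, shorten_eq]
  exact short_mids (short_mids hy) i

variable [NeZero n]

/-- A polygon whose energy does not drop is a closed local geodesic. -/
theorem isLocalGeo_curve (hρ : UniqueRadius g ρ) (hr : r < ρ) (hy : Short g r y)
    (he : energy g y ≤ energy g (shorten g y)) (hpos : 0 < energy g y) :
    ∃ D, 0 < D ∧ IsLocalGeo g D fun v => curve g y (v / 2) := by
  have h := (energy_mids_le y).2 (he.trans ((energy_shorten y).trans_le (energy_mids_le _).1))
  have hconst : ∀ k : ℕ, gdist g (y (k : ZMod n)) (y ((k : ZMod n) + 1)) = gdist g (y 0) (y 1) := by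
    intro k
    induction k with
    | zero => simp
    | succ k ih => rw [← ih, (h (k : ZMod n)).1]; push_cast; rfl
  set D := gdist g (y 0) (y 1)
  have hall : ∀ j : ZMod n, gdist g (y j) (y (j + 1)) = D := fun j => by
    have := hconst j.val
    rwa [ZMod.natCast_zmod_val] at this
  have hD : 0 < D := by
    refine lt_of_le_of_ne (gdist_nonneg _ _) fun h0 => ?_
    simp [energy, hall, ← h0] at hpos
  have hd : ∀ j, gdist g (y j) (y (j + 1)) < ρ := fun j => (hy j).trans_lt hr
  refine ⟨D / 2, half_pos hD, fun v w hvw hw => ?_⟩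
  set a := v / 2 with ha
  set b := w / 2 with hb
  show gdist g (curve g y a) (curve g y b) = _
  rw [show D / 2 * (w - v) = D * (b - a) by rw [ha, hb]; ring]
  have hab : a ≤ b := by rw [ha, hb]; linarith
  have hb' : b ≤ a + 1 / 2 := by rw [ha, hb]; linarith
  set j := ⌊b⌋
  have hbj : b ∈ Icc (j : ℝ) (j + 1) := ⟨Int.floor_le b, (Int.lt_floor_add_one b).le⟩
  have hI : ∀ {u : ℝ} {i : ℤ}, u ∈ Icc (i : ℝ) (i + 1) → u - i ∈ Icc (0 : ℝ) 1 := fun h =>
    ⟨by linarith [h.1], by linarith [h.2]⟩
  by_cases hcase : (j : ℝ) ≤ a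
  · have haj : a ∈ Icc (j : ℝ) (j + 1) := ⟨hcase, by linarith [hbj.2]⟩
    rw [curve_eq haj, curve_eq hbj, gdist_seg hρ (hd _) (hI haj) (hI hbj), hall,
      abs_sub_comm, abs_of_nonneg (by linarith)]
    ring
  push Not at hcase
  have haj : a ∈ Icc ((j - 1 : ℤ) : ℝ) ((j - 1 : ℤ) + 1) := by
    push_cast; exact ⟨by linarith [hbj.1], by linarith⟩
  have e1 : ((j - 1 : ℤ) : ZMod n) + 1 = (j : ZMod n) := by push_cast; ring
  have hA : gdist g (curve g y a) (y (j : ZMod n)) = D * (j - a) := by
    rw [curve_eq haj, e1, seg_right (hI haj)]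
    have := hall ((j - 1 : ℤ) : ZMod n)
    rw [e1] at this
    rw [this]; push_cast; ring
  have hB : gdist g (y (j : ZMod n)) (curve g y b) = D * (b - j) := by
    rw [curve_eq hbj, seg_left (hI hbj), hall]; ring
  refine le_antisymm ?_ ?_
  · linarith [gdist_triangle (g := g) (curve g y a) (y (j : ZMod n)) (curve g y b)]
  have hm := (h ((j - 1 : ℤ) : ZMod n)).2
  rw [hall, e1] at hm
  have hA' : gdist g (mids g y ((j - 1 : ℤ) : ZMod n)) (curve g y a) ≤
      D * (a - (j - 1 / 2)) := by
    rw [curve_eq haj, mids, gdist_seg hρ (hd _) half_mem (hI haj), hall]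
    refine mul_le_mul_of_nonneg_left (abs_le.2 ?_) hD.le
    push_cast
    constructor <;> linarith [hbj.1]
  have hB' : gdist g (curve g y b) (mids g y (j : ZMod n)) ≤ D * (j + 1 / 2 - b) := by
    rw [curve_eq hbj, mids, gdist_seg hρ (hd _) (hI hbj) half_mem, hall]
    refine mul_le_mul_of_nonneg_left (abs_le.2 ?_) hD.le
    constructor <;> linarith
  linarith [gdist_triangle (g := g) (mids g y ((j - 1 : ℤ) : ZMod n)) (curve g y a)
    (mids g y (j : ZMod n)), gdist_triangle (g := g) (curve g y a) (curve g y b)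
      (mids g y (j : ZMod n))]

variable (g) in
theorem continuous_energy : Continuous fun y : ZMod n → M => energy g y :=
  continuous_finsetSum _ fun j _ =>
    (Continuous.comp (g := fun q : M × M => gdist g q.1 q.2) (continuous_gdist g)
      (f := fun y : ZMod n → M => (y j, y (j + 1)))
      ((continuous_apply j).prodMk (continuous_apply (j + 1)))).pow 2

omit [NeZero n] in
theorem isClosed_short (r : ℝ) : IsClosed {y : ZMod n → M | Short g r y} := by
  have := isClosed_iInter fun j : ZMod n =>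
    isClosed_le ((continuous_gdist g).comp ((continuous_apply (A := fun _ => M) j).prodMk
      (continuous_apply (j + 1)))) (continuous_const (y := r))
  exact (congrArg IsClosed (Set.ext fun y => by simp [Short, mem_iInter])).mpr this

/-- Every non-trivial class contains a closed local geodesic. -/
theorem exists_geodesic_in_class (hρ : UniqueRadius g ρ) (hr0 : 0 < r) (hr : r < ρ)
    (hr8 : 3 * r < ρ) (hy : Short g r y) (hz : InClass z (polyLoop hρ hr hy)) :
    z = 1 ∨ ∃ (D τ : ℝ) (c : C(ℝ, M)) (hper : Function.Periodic c τ), 0 < D ∧ 0 < τ ∧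
      IsLocalGeo g D c ∧ InClass z (loopPow c τ hper 1) := by
  set S := {y : ZMod n → M | ∃ h : Short g r y, InClass z (polyLoop hρ hr h)}
  have hcl : IsClosed S := by
    refine isClosed_iff_nhds.2 fun y₁ h => ?_
    have hy₁ : Short g r y₁ :=
      isClosed_iff_nhds.1 (isClosed_short r) y₁ fun U hU => (h U hU).mono fun y hy => ⟨hy.1, hy.2.1⟩
    have hopen : {y' : ZMod n → M | ∀ j, gdist g (y' j) (y₁ j) < r} ∈ 𝓝 y₁ := by
      refine IsOpen.mem_nhds ?_ fun j => by rw [gdist_self]; exact hr0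
      simp only [Set.ofPred_forall]
      exact isOpen_iInter_of_finite fun j => isOpen_lt ((continuous_gdist g).comp
        ((continuous_apply (A := fun _ => M) j).prodMk continuous_const)) continuous_const
    obtain ⟨y', hy'1, hy'2, hy'3⟩ := h _ hopen
    exact ⟨hy₁, inClass_near hρ hr hr8 hy'2 hy₁ (fun j => (hy'1 j).le) hy'3⟩
  obtain ⟨y₀, ⟨hs, hz₀⟩, hmin⟩ := hcl.isCompact.exists_isMinOn ⟨y, hy, hz⟩
    (continuous_energy g).continuousOn
  have hs' := short_shorten hs
  have he : energy g y₀ ≤ energy g (shorten g y₀) :=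
    hmin (show shorten g y₀ ∈ S from
      ⟨hs', inClass_near hρ hr hr8 hs hs' (gdist_shorten_self hs) hz₀⟩)
  have hE0 : 0 ≤ energy g y₀ := Finset.sum_nonneg fun j _ => sq_nonneg _
  rcases hE0.eq_or_lt with h0 | hpos
  · left
    have hconst : ∀ j, y₀ j = y₀ (j + 1) := fun j => gdist_eq_zero.1 (pow_eq_zero_iff two_ne_zero |>.1
      ((Finset.sum_eq_zero_iff_of_nonneg fun j _ => sq_nonneg _).1 h0.symm j (Finset.mem_univ j)))
    have hall : ∀ k : ℕ, y₀ (k : ZMod n) = y₀ 0 := by
      intro k
      induction k with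
      | zero => simp
      | succ k ih => rw [← ih, hconst (k : ZMod n)]; push_cast; rfl
    have hall' : ∀ j, y₀ j = y₀ 0 := fun j => by
      have := hall j.val
      rwa [ZMod.natCast_zmod_val] at this
    have hL : ∀ t : I, polyLoop hρ hr hs t = y₀ 0 := fun t => by
      rw [polyLoop_apply, curve]
      rw [hall' _, hall' ((⌊(t : ℝ) * n⌋ : ZMod n) + 1), seg_self
        ⟨Int.fract_nonneg _, (Int.fract_lt_one _).le⟩]
    have hp : polyLoop hρ hr hs = Path.refl (y₀ 0) := Path.ext (funext hL)
    obtain ⟨Q, rfl⟩ := hz₀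
    rw [hp, cls_refl, tr_one]
  · right
    obtain ⟨D, hD, hgeo⟩ := isLocalGeo_curve hρ hr hs he hpos
    let c : C(ℝ, M) := ⟨fun v => curve g y₀ (v / 2), hgeo.continuous⟩
    have hper : Function.Periodic c (2 * (n : ℝ)) := fun t => by
      show curve g y₀ ((t + 2 * n) / 2) = curve g y₀ (t / 2)
      rw [show (t + 2 * (n : ℝ)) / 2 = t / 2 + n by ring, curve_periodic]
    refine ⟨D, 2 * n, c, hper, hD, mul_pos two_pos (Nat.cast_pos.2 (NeZero.pos n)), hgeo,
      hz₀.of_free _ ⟨fun q => curve g y₀ ((q.2 : ℝ) * n),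
        (polyLoop hρ hr hs).continuous.comp continuous_snd⟩ (fun t => rfl) (fun t => ?_) fun s => ?_⟩
    · show curve g y₀ _ = curve g y₀ ((t : ℝ) * ((1 : ℤ) * (2 * n)) / 2)
      congr 1
      push_cast
      ring
    · show curve g y₀ _ = curve g y₀ _
      simp [curve_zero, curve_n]

end

end Vale.Agent.P216.Pi1
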