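import Vale.Agent.P216.Sym.Seg

/-!
P216: closed local geodesics with the same image differ by an affine change of time.
-/

open Set Filter Metric Manifold Bundle
open scoped Topology ContDiff

namespace Vale.Agent.P216.Pi1

open Vale.Agent.P216.Chord Vale.Agent.P216.Sym

noncomputable section

variable {E : Type*} [NormedAddCommGroup E] [NormedSpace ℝ E]
  {M : Type*} [TopologicalSpace M] [ChartedSpace E M] [IsManifold 𝓘(ℝ, E) ∞ M]
  [T2Space M] [CompactSpace M] [PreconnectedSpace M]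
  {g : ContMDiffRiemannianMetric 𝓘(ℝ, E) ∞ E (fun x : M => TangentSpace 𝓘(ℝ, E) x)}
  {ρ D D' : ℝ} {c c' : ℝ → M}

/-- Two local segments agreeing on half of a short interval agree on the interval. -/
theorem agree_step (hρ : UniqueRadius g ρ) (hc : IsLocalGeo g D c) (hc' : IsLocalGeo g D' c')
    {l s₀ h p : ℝ} (hl : D * |l| = D') (hh : |h| ≤ 1) (hlh : |l * h| ≤ 1) (hL : D' * |h| < ρ)
    (hag : ∀ x ∈ Icc (0 : ℝ) (1 / 2), c' (p + h * x) = c (l * (p + h * x) + s₀)) :
    ∀ x ∈ Icc (0 : ℝ) 1, c' (p + h * x) = c (l * (p + h * x) + s₀) := by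
  have h1 := hc'.isSegment p hh
  have h2 := hc.isSegment (l * p + s₀) hlh
  rw [show D * |l * h| = D' * |h| by rw [abs_mul, ← mul_assoc, hl]] at h2
  have e : ∀ x, l * (p + h * x) + s₀ = l * p + s₀ + l * h * x := fun x => by ring
  intro x hx
  rw [e]
  refine hρ.2 _ _ _ h1 h2 hL ?_ (Or.inr fun y hy => ?_) x hx
  · rw [← e]; exact hag 0 ⟨le_rfl, by norm_num⟩
  · rw [← e]; exact hag y hy

/-- Iterating the step along a half line. -/
theorem agree_ray (hρ : UniqueRadius g ρ) (hc : IsLocalGeo g D c) (hc' : IsLocalGeo g D' c')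
    {l s₀ h p : ℝ} (hl : D * |l| = D') (hh : |h| ≤ 1) (hlh : |l * h| ≤ 1) (hL : D' * |h| < ρ)
    (hag : ∀ x ∈ Icc (0 : ℝ) (1 / 2), c' (p + h * x) = c (l * (p + h * x) + s₀)) {x : ℝ}
    (hx : 0 ≤ x) : c' (p + h * x) = c (l * (p + h * x) + s₀) := by
  have key : ∀ k : ℕ, ∀ x ∈ Icc (0 : ℝ) ((k + 1 : ℝ) / 2),
      c' (p + h * x) = c (l * (p + h * x) + s₀) := by
    intro k
    induction k with
    | zero => simpa using hag
    | succ k ih =>
      intro x hx
      rcases le_or_gt x ((k + 1 : ℝ) / 2) with hxk | hxk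
      · exact ih x ⟨hx.1, hxk⟩
      have e : ∀ y : ℝ, p + h * k / 2 + h * y = p + h * (k / 2 + y) := fun y => by ring
      have := agree_step (p := p + h * k / 2) hρ hc hc' hl hh hlh hL (fun y hy => by
        rw [e]
        exact ih _ ⟨by linarith [hy.1, (Nat.cast_nonneg k : (0 : ℝ) ≤ _)],
          by linarith [hy.2]⟩)
        (x - k / 2) ⟨by linarith, by push_cast at hx; linarith [hx.2]⟩
      rwa [e, add_sub_cancel] at this
  obtain ⟨k, hk⟩ := exists_nat_ge (2 * x)
  exact key k x ⟨hx, by linarith⟩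

/-- A local segment inside the image of another one is an affine reparametrisation of it. -/
theorem exists_affine (hρ : UniqueRadius g ρ) (hc : IsLocalGeo g D c) (hc' : IsLocalGeo g D' c')
    (hD : 0 < D) (hD' : 0 < D') (hsub : range c' ⊆ range c) :
    ∃ l s₀ : ℝ, l ≠ 0 ∧ ∀ t, c' t = c (l * t + s₀) := by
  let A : ℤ → Set ℝ := fun k => c' ⁻¹' (c '' Icc ((k : ℝ) / 2) ((k : ℝ) / 2 + 1 / 2))
  have hA : ∀ k, IsClosed (A k) := fun k =>
    ((isCompact_Icc.image hc.continuous).isClosed).preimage hc'.continuous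
  have hU : ⋃ k, A k = univ := eq_univ_of_forall fun t => by
    obtain ⟨u, hu⟩ := hsub (mem_range_self t)
    exact mem_iUnion.2 ⟨⌊2 * u⌋, u, ⟨by linarith [Int.floor_le (2 * u)],
      by linarith [Int.lt_floor_add_one (2 * u)]⟩, hu⟩
  obtain ⟨k, t₀, ht₀⟩ := nonempty_interior_of_iUnion_of_closed hA hU
  obtain ⟨ε, hε, hball⟩ := Metric.mem_nhds_iff.1 (mem_interior_iff_mem_nhds.1 ht₀)
  set a := t₀
  set b := t₀ + min (ε / 2) 1 with hb
  have hm : 0 < min (ε / 2) 1 := lt_min (half_pos hε) one_pos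
  have hab : a < b := by rw [hb]; linarith
  have hin : ∀ t ∈ Icc a b, ∃ u ∈ Icc ((k : ℝ) / 2) ((k : ℝ) / 2 + 1 / 2), c u = c' t := by
    intro t ht
    refine hball ?_
    rw [mem_ball, Real.dist_eq, abs_lt]
    constructor <;> linarith [ht.1, ht.2, min_le_left (ε / 2) (1 : ℝ)]
  choose φ hφ hcφ using hin
  have hdist : ∀ t (ht : t ∈ Icc a b) t' (ht' : t' ∈ Icc a b),
      D * |φ t ht - φ t' ht'| = D' * |t - t'| := by
    intro t ht t' ht'
    rw [← hc.dist, ← hc'.dist, hcφ, hcφ]
    · rw [abs_le]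
      constructor <;> linarith [ht.1, ht.2, ht'.1, ht'.2, min_le_right (ε / 2) (1 : ℝ)]
    · rw [abs_le]
      constructor <;> linarith [(hφ t ht).1, (hφ t ht).2, (hφ t' ht').1, (hφ t' ht').2]
  have haI : a ∈ Icc a b := ⟨le_rfl, hab.le⟩
  have hbI : b ∈ Icc a b := ⟨hab.le, le_rfl⟩
  set L := D' / D with hLdef
  have hL0 : 0 < L := div_pos hD' hD
  have hd : ∀ t (ht : t ∈ Icc a b) t' (ht' : t' ∈ Icc a b),
      |φ t ht - φ t' ht'| = L * |t - t'| := fun t ht t' ht' => by
    rw [hLdef, div_mul_eq_mul_div, eq_div_iff hD.ne', mul_comm]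
    exact hdist t ht t' ht'
  set l := (φ b hbI - φ a haI) / (b - a) with hl
  have hba : 0 < b - a := sub_pos.2 hab
  have hlabs : |l| = L := by
    rw [hl, abs_div, hd b hbI a haI, abs_of_pos hba, mul_div_cancel_right₀ _ hba.ne']
  have haff : ∀ t ∈ Icc a b, c' t = c (l * t + (φ a haI - l * a)) := by
    intro t ht
    rw [← hcφ t ht]
    congr 1
    have h1 := hd t ht a haI
    have h2 := hd b hbI t ht
    have h3 := hd b hbI a haI
    rw [abs_of_nonneg (sub_nonneg.2 ht.1)] at h1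
    rw [abs_of_nonneg (sub_nonneg.2 ht.2)] at h2
    rw [abs_of_pos hba] at h3
    have e : l * (b - a) = φ b hbI - φ a haI := div_mul_cancel₀ _ hba.ne'
    have b1 := abs_le.1 h1.le
    have b2 := abs_le.1 h2.le
    rcases (abs_eq (by positivity)).1 h3 with h | h
    · have : l = L := mul_right_cancel₀ hba.ne' (e.trans h)
      rw [this]; linarith
    · have : l = -L := mul_right_cancel₀ hba.ne' (by rw [e, h]; ring)
      rw [this]; linarith
  refine ⟨l, φ a haI - l * a, fun h0 => hL0.ne' (by rw [← hlabs, h0, abs_zero]), ?_⟩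
  have hl' : D * |l| = D' := by rw [hlabs, hLdef]; field_simp
  obtain ⟨h, hh0, hh1, hh2, hh3, hh4⟩ :
      ∃ h : ℝ, 0 < h ∧ h ≤ 1 ∧ L * h ≤ 1 ∧ D' * h < ρ ∧ h ≤ b - a := by
    refine ⟨min (min 1 (1 / L)) (min (ρ / (2 * D')) (b - a)),
      lt_min (lt_min one_pos (by positivity)) (lt_min (div_pos hρ.1 (by positivity)) hba),
      (min_le_left _ _).trans (min_le_left _ _), ?_, ?_, (min_le_right _ _).trans (min_le_right _ _)⟩
    · refine (mul_le_mul_of_nonneg_left
        ((min_le_left _ _).trans (min_le_right _ _)) hL0.le).trans_eq ?_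
      field_simp
    · refine (mul_le_mul_of_nonneg_left
        ((min_le_right _ _).trans (min_le_left _ _)) hD'.le).trans_lt ?_
      rw [mul_div_assoc', div_lt_iff₀ (by positivity)]
      nlinarith [hρ.1]
  intro t
  rcases le_total a t with hat | hta
  · have := agree_ray (p := a) (h := h) (x := (t - a) / h) (s₀ := φ a haI - l * a) hρ hc hc' hl'
      (by rwa [abs_of_pos hh0]) (by rwa [abs_mul, hlabs, abs_of_pos hh0])
      (by rwa [abs_of_pos hh0])
      (fun x hx => haff _ ⟨by nlinarith [hx.1], by nlinarith [hx.2]⟩)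
      (div_nonneg (by linarith) hh0.le)
    rwa [mul_div_cancel₀ _ hh0.ne', add_sub_cancel] at this
  · have := agree_ray (p := a + h / 2) (h := -h) (x := (a + h / 2 - t) / h)
      (s₀ := φ a haI - l * a) hρ hc hc' hl'
      (by rwa [abs_neg, abs_of_pos hh0]) (by rwa [abs_mul, hlabs, abs_neg, abs_of_pos hh0])
      (by rwa [abs_neg, abs_of_pos hh0])
      (fun x hx => haff _ ⟨by nlinarith [hx.2], by nlinarith [hx.1]⟩)
      (div_nonneg (by linarith) hh0.le)
    rwa [neg_mul, mul_div_cancel₀ _ hh0.ne', show a + h / 2 + -(a + h / 2 - t) = t by ring] at this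

/-- The periods of a local geodesic are the multiples of a positive one. -/
theorem exists_period (hc : IsLocalGeo g D c) (hD : 0 < D) :
    ∃ a : ℝ, Function.Periodic c a ∧
      ∀ x, Function.Periodic c x → ∃ m : ℤ, x = m * a := by
  let P : AddSubgroup ℝ :=
    { carrier := {x | Function.Periodic c x}
      zero_mem' := fun t => by simp
      add_mem' := fun h h' => h.add_period h'
      neg_mem' := fun h => h.neg }
  have hd : Disjoint (P : Set ℝ) (Ioo 0 1) := by
    rw [Set.disjoint_left]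
    intro x (hx : Function.Periodic c x) hx'
    have h := hc 0 x hx'.1.le (by linarith [hx'.2])
    rw [show c x = c 0 by simpa using hx 0, gdist_self] at h
    nlinarith [hx'.1]
  obtain ⟨a, ha⟩ := AddSubgroup.cyclic_of_isolated_zero one_pos hd
  refine ⟨a, (show a ∈ P by rw [ha]; exact AddSubgroup.subset_closure rfl), fun x hx => ?_⟩
  obtain ⟨m, hm⟩ := AddSubgroup.mem_closure_singleton.1 (ha ▸ (show x ∈ P from hx))
  exact ⟨m, by rw [← hm, zsmul_eq_mul]⟩

end

end Vale.Agent.P216.Pi1
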