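import Vale.Agent.P216.Pi1.Group
import Vale.Agent.P216.Pi1.Minimise
import Vale.Agent.P216.Pi1.Reparam
import Vale.Agent.P216.Defs

/-!
P216: with finitely many closed geodesics every element of the fundamental group is conjugate to a
power of one of finitely many elements.
-/

open Set Filter Metric Manifold Bundle
open scoped Topology ContDiff unitInterval

namespace Vale.Agent.P216.Pi1

open Vale.Agent.P216.Chord Vale.Agent.P216.Sym

noncomputable section

variable {E : Type*} [NormedAddCommGroup E] [NormedSpace ℝ E] [FiniteDimensional ℝ E]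
  {M : Type*} [TopologicalSpace M] [ChartedSpace E M] [IsManifold 𝓘(ℝ, E) ∞ M]
  [T2Space M] [CompactSpace M] [ConnectedSpace M]
  {g : ContMDiffRiemannianMetric 𝓘(ℝ, E) ∞ E (fun x : M => TangentSpace 𝓘(ℝ, E) x)}

/-- A closed local geodesic with a least period. -/
structure Rep (g : ContMDiffRiemannianMetric 𝓘(ℝ, E) ∞ E (fun x : M => TangentSpace 𝓘(ℝ, E) x))
    (S : Set M) where
  D : ℝ
  c : C(ℝ, M)
  a : ℝ
  pos : 0 < D
  geo : IsLocalGeo g D c
  per : Function.Periodic c a
  least : ∀ x, Function.Periodic c x → ∃ m : ℤ, x = m * a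
  range_eq : range c = S

theorem exists_cycClasses (hfin : (closedGeodesicImages g).Finite) (x₀ : M) :
    ∃ S : Set (FundamentalGroup M x₀), S.Finite ∧ CycClasses S := by
  classical
  have : LocallyPathConnectedSpace M := ChartedSpace.locallyPathConnectedSpace E M
  have : PathConnectedSpace M := pathConnectedSpace_iff_connectedSpace.2 inferInstance
  obtain ⟨ρ, hρ0, hρ1⟩ := exists_unique_radius g
  have hρ : UniqueRadius g ρ := ⟨hρ0, hρ1⟩
  let gen : Set M → FundamentalGroup M x₀ := fun S =>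
    if h : Nonempty (Rep g S) then
      tr (PathConnectedSpace.somePath x₀ (h.some.c 0)) (cls (loopPow h.some.c h.some.a h.some.per 1))
    else 1
  refine ⟨insert 1 (gen '' closedGeodesicImages g), (hfin.image gen).insert 1, fun z => ?_⟩
  obtain ⟨γ, rfl⟩ := cls_surjective z
  have hr : ρ / 8 < ρ := by linarith
  obtain ⟨n, hn, y, hy, hcl⟩ :=
    exists_inscribed' (r := ρ / 8) hρ (by linarith) hr (by linarith) γ
  rcases exists_geodesic_in_class (r := ρ / 8) hρ (by linarith) hr (by linarith) hy hcl with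
    h1 | ⟨D, τ, c, hper, hD, hτ, hgeo, hc⟩
  · exact ⟨1, mem_insert _ _, 0, 1, by simp [h1]⟩
  set S := range c
  have hS : S ∈ closedGeodesicImages g := ⟨c, hgeo.isClosedGeodesic hD hτ hper, rfl⟩
  obtain ⟨a, hpa, hmin⟩ := exists_period hgeo hD
  have hne : Nonempty (Rep g S) := ⟨⟨D, c, a, hD, hgeo, hpa, hmin, rfl⟩⟩
  set R := hne.some
  have hgen : gen S =
      tr (PathConnectedSpace.somePath x₀ (R.c 0)) (cls (loopPow R.c R.a R.per 1)) := by
    simp only [gen, dif_pos hne, R]
  obtain ⟨l, s₀, hl, haff⟩ :=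
    exists_affine hρ R.geo hgeo R.pos hD (by rw [R.range_eq])
  have hlτ : Function.Periodic R.c (l * τ) := fun u => by
    have h := hper ((u - s₀) / l)
    rw [haff, haff] at h
    rw [show l * ((u - s₀) / l + τ) + s₀ = u + l * τ by field_simp; ring,
      show l * ((u - s₀) / l) + s₀ = u by field_simp; ring] at h
    exact h
  obtain ⟨m, hm⟩ := R.least _ hlτ
  have hc' : InClass (cls γ) (loopPow R.c R.a R.per m) := by
    refine hc.of_free _
      ⟨fun q => R.c ((1 - (q.1 : ℝ)) * s₀ + (q.2 : ℝ) * (m * R.a)), by fun_prop⟩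
      (fun t => ?_) (fun t => ?_) fun s => ?_
    · show R.c _ = c ((t : ℝ) * ((1 : ℤ) * τ))
      rw [haff]
      congr 1
      push_cast
      rw [← hm]
      ring
    · show R.c _ = R.c ((t : ℝ) * (m * R.a))
      simp
    · show R.c _ = R.c _
      simp only [Set.Icc.coe_zero, Set.Icc.coe_one, zero_mul, add_zero, one_mul]
      exact (R.per.int_mul m _).symm
  obtain ⟨Q, hQ⟩ := hc'
  obtain ⟨r, hr'⟩ := tr_conj (PathConnectedSpace.somePath x₀ (R.c 0)) Q
    (cls (loopPow R.c R.a R.per 1) ^ m)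
  refine ⟨gen S, mem_insert_of_mem _ ⟨S, hS, rfl⟩, m, r, ?_⟩
  rw [hgen, ← tr_zpow, hQ, cls_loopPow, hr']

/-- A closed connected manifold carries infinitely many closed geodesics if a subgroup of finite
index of its fundamental group has a homomorphism to `ℤ` whose kernel has unbounded images in finite
quotients, or a normal series in which `p`-th powers double the depth with more than logarithmically
many strict steps. -/
theorem infinite_of_pi1 (x₀ : M) (H : Subgroup (FundamentalGroup M x₀)) [H.FiniteIndex]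
    (hK : (∃ φ : H →* Multiplicative ℤ, φ ≠ 1 ∧
        ((Group.ResiduallyFinite (FundamentalGroup M x₀) ∧ Infinite φ.ker) ∨
          ∀ B : ℕ, ∃ (N : Subgroup H) (_hN : N.Normal), N.FiniteIndex ∧
            B < Nat.card (φ.ker.map (QuotientGroup.mk' N) : Subgroup (H ⧸ N)))) ∨
      ∃ (p : ℕ) (D : ℕ → Subgroup H), p.Prime ∧ (∀ n, (D n).Normal) ∧ Antitone D ∧ D 1 = ⊤ ∧
        (∀ n, ∀ x ∈ D n, x ^ p ∈ D (2 * n)) ∧ ∀ C : ℕ, ∃ n, C * (Nat.log 2 n + 1) <
          Set.ncard {i | i ∈ Set.Icc 1 n ∧ D (i + 1) ≠ D i}) :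
    (closedGeodesicImages g).Infinite := fun hfin => by
  obtain ⟨S, hS, hcyc⟩ := exists_cycClasses hfin x₀
  exact not_cycClasses H hK hS hcyc

end

end Vale.Agent.P216.Pi1
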